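import Vale.Agent.P352.H246.Sub
import Vale.Agent.P352.H246.CfImpr2
import Vale.Agent.P352.H246.ScalVac
import Vale.Agent.P352.H496.Enl2
import Vale.Agent.P352.H746.Chg2
import Vale.Agent.P352.H731.Top2
import Vale.Agent.P352.H755.ChJ
import Vale.Agent.P352.H496.SimC

namespace Vale.Agent.Results.P352.CurlFreeVirial

open Vale.Agent.P352.GF Vale.Agent.P352.H246 Vale.Agent.P352.H496 Vale.Agent.P352.H755
open Vale.Agent.P352.H15 UniformSpace

/-- Let `T` be the stress tensor of the scale-invariant theory `Q`. (1) Every traceless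
improvement `t` of `T` has conformal charges that act on all fields by infinitesimal conformal
transformations. (2) If a virial current `J` has curl `J Ω = 0`, then
`t = T + (∂J - η ∂·J) / 3` is such an improvement, in `Q` and in all enlargements of `Q` by further
local fields, and if the charges of `X^n T_{mn} - r J_m` generate the similitudes, so do those
of `X^n t_{mn}`. (3) There is exactly one covariant Hilbert space valued distribution `l` of
dimension two with `3 □ l = tr T Ω`; in each enlargement with covariant fields, a Bose field `L`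
satisfies `L Ω = l` if and only if it is a scalar of dimension two and `T + (∂∂ - η □) L` is a
traceless improvement; in (2), `J = 3 grad Λ` with a local field `Λ`, `Λ Ω = l`. (4) The
distribution `l` is wedge-local, and it extends to an energy-bounded local field `Λ` with
`T + (∂∂ - η □) Λ` traceless if and only if it satisfies the energy bound on the wedges; `Λ` is
then unique. -/
theorem result {D : Type*} [NormedAddCommGroup D] [InnerProductSpace ℂ D] (Q : Theory D)
    (T : Ix → Ix → Fld D) (hT : Q.IsStress T) :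
    (∀ t, IsImpr Q T t → ConfAct Q t) ∧
    (∀ J, IsVirial Q T J →
      (∀ m n f, IsTest f →
        (eta n : ℂ) • J n (pd m f) Q.vac = (eta m : ℂ) • J m (pd n f) Q.vac) →
      ∀ Q' : Theory D, IsEnl Q Q' → IsImpr Q' T (improveJ T J) ∧
        (SimGen Q' T J → SimGen Q' (improveJ T J) fun _ _ _ => 0) ∧
        ConfAct Q' (improveJ T J)) ∧
    ∃ l : Fn → Completion D, IsPot Q T l ∧
      (∀ l', IsPot Q T l' → ∀ f, IsTest f → l' f = l f) ∧
      (∀ Q' : Theory D, IsEnl Q Q' → (∀ s M a, 0 < s → IsLor M → Cov Q' s M a) →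
        ∀ L, Q'.bose L → ((∀ f, IsTest f → ((L f Q.vac : D) : Completion D) = l f) ↔
          Q'.IsScalar L 2 ∧ IsImpr Q' T (improve T L))) ∧
      (∀ J, IsVirial Q T J →
        (∀ m n f, IsTest f →
          (eta n : ℂ) • J n (pd m f) Q.vac = (eta m : ℂ) • J m (pd n f) Q.vac) →
        ∃ Λ, IsImp Q T l Λ ∧ ∀ m f v, In Set.univ f → Gen Q Set.univ v →
          (3 : ℂ) • Λ (pd m f) v = -((eta m : ℂ) • ((J m f v : D) : Completion D))) ∧
      (∀ M a f X X', IsLor M → In (Wed M a 1) f → Al Q (Wed M a (-1)) X X' →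
        inner ℂ ((X' Q.vac : D) : Completion D) (l f) =
          inner ℂ (l (bar f)) ((X Q.vac : D) : Completion D)) ∧
      ((∃ Λ, IsExt Q T l Λ ∧ Bdd Q Λ) ↔ WedBdd Q l) ∧
      ∀ Λ Λ', IsExt Q T l Λ → Bdd Q Λ → IsExt Q T l Λ' → Bdd Q Λ' →
        ∀ f v, In Set.univ f → Gen Q Set.univ v → Λ f v = Λ' f v := by
  refine ⟨fun t ht => conf_act (isT_of_impr ht hT), fun J hJ hc Q' hE => ?_, ?_⟩
  · have hT' := Vale.Agent.P352.H746.isStress_enl hE hT
    have hJ' := Vale.Agent.P352.H731.enl_virial hE hJ
    have hc' : Curl J Q'.vac := by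
      rw [hE.vac]
      exact curl_of hc
    have h1 := Vale.Agent.P352.H246D.impr_of_curl hT' hJ' hc'
    exact ⟨h1, simGen_curl hT' hJ' hc', conf_act (isT_of_impr h1 hT')⟩
  · obtain ⟨l, hl, hu, -, -, hw, hb, hq⟩ := Vale.Agent.P352.H246.main2 hT
    refine ⟨l, hl, hu, fun Q' hE hC L hL => ?_, fun J hV hc => hV.exists_imp (curl_of hc) hl,
      hw, hb, hq⟩
    have hT' := Vale.Agent.P352.H746.isStress_enl hE hT
    have hlQ : IsPot Q' T l := by
      refine ⟨hl.lin, hl.cont, ?_, ?_⟩
      · rw [hE.vac]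
        exact hl.trace
      · rw [hE.U]
        exact hl.cov
    obtain ⟨l', hl', hu', hs', -, hrel', -⟩ := Vale.Agent.P352.H246.main2 hT'
    have e : ∀ f, IsTest f → l f = l' f := hu' l hlQ
    rw [← hE.vac]
    refine ⟨fun h => ?_, fun h => ?_⟩
    · obtain ⟨h1, h2⟩ := scalar_of_vac hT' hl' hrel' hC hL fun f hf => (h f hf).trans (e f hf)
      exact ⟨h1, isImpr hT hE h1 h2⟩
    · intro f hf
      rw [e f hf]
      exact (hs' L h.1 h.2.traceless).1 f hf

end Vale.Agent.Results.P352.CurlFreeVirial
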