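import Vale.Agent.P352.H15.V9

namespace Vale.Agent.Results.P352.NullCharges

open Vale.Agent.P352.GF Vale.Agent.P352.H246 Vale.Agent.P352.H496 Vale.Agent.P352.H15
open Vale.Agent.P352.H755 Vale.Agent.P352.H846 Vale.Agent.P352.H121

/-- Let `T` be the stress tensor and `J` a virial current of the theory `Q`.

(1) If the charges of `T` on null hyperplanes exist, the on-shell dilaton constraint (the trace of
`T` vanishes when it is integrated over null hyperplanes) holds if and only if `Q` is conformally
invariant: a scalar field `L` of dimension two, local relative to any choice `Q₁` of local fields,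
improves `T` to a traceless stress tensor whose conformal charges act on all fields as
infinitesimal conformal transformations. It is enough that the constraint holds on the vectors
that the stress tensor creates from the vacuum below the null hyperplanes, and it is necessary for
any local scalar `L` of dimension two to improve `T`. The constraint holds if the second moments
`K a` of `T_aa` are additive in `a` on the vectors that the stress tensor creates from the vacuum,
and it implies that they are additive in `a`, if there is no flux at infinity. The second moments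
are themselves generators of special conformal transformations if and only if the constraint holds
for `T` and `J`, and it is enough that it holds for `T`, if the vacuum is cyclic for the tensor
fields.

(2) `Q` is also conformally invariant if there are special conformal generators that act locally or
are the second moments of `T_aa`. The conformal charges are the generators `A X` and `K a`, if the
charges on null hyperplanes exist and there is no flux at infinity.

(3) At most one local scalar `L` of dimension two improves `T` to a traceless tensor. -/
theorem result {D : Type*} [NormedAddCommGroup D] [InnerProductSpace ℂ D] (Q : Theory D)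
    (T : Ix → Ix → Fld D) (hT : Q.IsStress T) (J : Ix → Fld D) (hJ : IsVirial Q T J)
    (A : (V → V) → D → D) (K : V → D → D) :
    (NullCharges Q T J A K →
      (TrVac Q T ↔ TrNull T) ∧
      (TrNull T ↔ ∃ L : Fld D, ∀ Q₁ : Theory D, IsEnl Q Q₁ → ∃ Q₂ : Theory D, IsEnl Q₁ Q₂ ∧
        Q₂.IsScalar L 2 ∧ Q₂.IsStress (improve T L) ∧ IsImpr Q₂ T (improve T L) ∧
        ConfAct Q₂ (improve T L)) ∧
      (∀ (Q' : Theory D) (L : Fld D), IsEnl Q Q' → Q'.IsScalar L 2 →
        (∀ f v, IsTest f → tr (improve T L) f v = 0) → TrNull T) ∧
      (Vale.Agent.P352.H731.AddT Q T K → TrNull T) ∧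
      (NoFlux T J → TrNull T → Vale.Agent.P352.H746.AddK K) ∧
      (ConfGen Q A K ↔ OnShell Q T J) ∧ (TGen Q → (ConfGen Q A K ↔ TrNull T))) ∧
    (ConfGen Q A K → Mom Q T K ∨ Act Q J K →
      ∃ L : Fld D, ∀ Q₁ : Theory D, IsEnl Q Q₁ → ∃ Q₂ : Theory D, IsEnl Q₁ Q₂ ∧
        Q₂.IsScalar L 2 ∧ Q₂.IsStress (improve T L) ∧ IsImpr Q₂ T (improve T L) ∧
        ConfAct Q₂ (improve T L) ∧
        (NullCharges Q T J A K → NoFlux T J →
          (∀ r X, IsSim r X → Chg Q₂ (improve T L) X (A X)) ∧
          ∀ a, IsNull a → Chg Q₂ (improve T L) (cK a) (K a))) ∧
    ∀ (Q₁ Q₂ : Theory D) (L L' : Fld D), IsEnl Q Q₁ → Q₁.IsScalar L 2 →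
      (∀ f v, IsTest f → tr (improve T L) f v = 0) → IsEnl Q Q₂ → Q₂.IsScalar L' 2 →
      (∀ f v, IsTest f → tr (improve T L') f v = 0) → ∀ f v, IsTest f → L f v = L' f v :=
  main_v9 hT hJ

end Vale.Agent.Results.P352.NullCharges
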