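import Vale.Agent.P352.H246.Fin
import Vale.Agent.P352.H496.V5
import Vale.Agent.P352.H496.V6

namespace Vale.Agent.Results.P352.NullCrossing

open Vale.Agent.P352.GF Vale.Agent.P352.H246 Vale.Agent.P352.H496 Vale.Agent.P352.H755
open Vale.Agent.P352.H746 Vale.Agent.P352.H15 Vale.Agent.P352.H993 Vale.Agent.P352.H121
open UniformSpace Filter Topology

/-- Let `T` be the stress tensor and `S a` null deformations with generators `G a`. The potential
`l` of the trace of `T` on the vacuum is invariant under the null deformations (`Inv`) if and only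
if one `G a` is transversally local (`TL`). This is the case if on the vectors `T(f) Ω` the `G a`
are additive in the null vector `a` (`Lin`), if for one `a` the vacuum expectation values of the
double commutators of `G a` with `T` and its trace vanish at spacelike separation (`Loc2`), or if a
null energy moment of `l` is finite, and it is necessary for the existence of a local scalar `L`
(of the theory or of an enlargement) such that `T + (∂∂ - η □) L` is traceless; it implies that
there is a form valued improvement. For a virial current, `Inv` holds if and only if the on-shell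
two dilaton amplitude is crossing symmetric, if and only if the number `k` that determines it
vanishes. If the charges of `T` on null hyperplanes exist, `k = 0`, the existence of
a form valued improvement, the on-shell dilaton constraint (all matrix elements of the trace,
integrated over null hyperplanes, vanish) and conformal invariance are equivalent. -/
theorem result {D : Type*} [NormedAddCommGroup D] [InnerProductSpace ℂ D] (Q : Theory D)
    (T : Ix → Ix → Fld D) (hT : Q.IsStress T) (H : D → D) (alg : Set V → Set (D → D))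
    (S : V → ℝ → D → D) (N : CNet Q H alg S) (G : V → D → D) (Gg : Gnr Q alg S G) :
    ∃ l : Fn → Completion D, IsPot Q T l ∧ (∀ v, ∃! c, Val l v c) ∧
      ((∃ a, IsNull a ∧ TL Q T G l a) ↔ Inv S l) ∧
      (Lin Q T G → Inv S l) ∧
      (∀ a, IsNull a → Loc2 Q T G a ∨ Vale.Agent.P352.H246D.Mom G l a → Inv S l) ∧
      (∀ Q' L, IsEnl Q Q' → Q'.IsScalar L 2 → (∀ f v, IsTest f → tr (improve T L) f v = 0) →
        Inv S l) ∧
      (Inv S l → ∃ Λ, IsForm Q T l Λ) ∧
      ∀ J, IsVirial Q T J → ∃ k : ℂ, (k = 0 ↔ Inv S l) ∧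
        (∀ κ, Tst κ → (∀ᶠ x in 𝓝 0, κ x = 1) →
          TwoDilaton Q J G l κ k ∧ (Crossing Q J G κ ↔ Inv S l)) ∧
        ∀ A K, NullCharges Q T J A K → List.TFAE [k = 0, ∃ Λ, IsForm Q T l Λ, TrNull T,
          ∃ L : Fld D, ∀ Q₁ : Theory D, IsEnl Q Q₁ → ∃ Q₂ : Theory D, IsEnl Q₁ Q₂ ∧
            Q₂.IsScalar L 2 ∧ Q₂.IsStress (improve T L) ∧ IsImpr Q₂ T (improve T L) ∧
            ConfAct Q₂ (improve T L)] := by
  obtain ⟨l, hl, -⟩ := Vale.Agent.P352.H246.main hT
  obtain ⟨h1, h2, -⟩ := criterion2 hT N.toNet hl
  refine ⟨l, hl, h1, tl_iff hT N Gg hl, inv_of_lin hT N Gg hl, fun a ha h => ?_,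
    fun Q' L hE hL htr => inv_of_L hT N Gg hE hL htr hl, h2, fun J hJ => ?_⟩
  · rcases h with h | h
    · exact inv_of_loc2 hT N Gg hl ⟨a, ha, h⟩
    · exact Vale.Agent.P352.H246D.mom_inv hT N Gg hl ⟨a, ha, h⟩
  · obtain ⟨k, hk, h⟩ := exists_two hT N Gg hJ hl
    exact ⟨k, hk, fun κ hκ hκ1 => ⟨h κ hκ hκ1, cross_iff hT N Gg hJ hl hκ hκ1⟩,
      fun A K hA => v5_core hT hJ N Gg hl hA hk⟩

end Vale.Agent.Results.P352.NullCrossing
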