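import Vale.Agent.P352.H246.SubF
import Vale.Agent.P352.H846.ConfF

namespace Vale.Agent.Results.P352.SubtheoryConformal

open Vale.Agent.P352.GF Vale.Agent.P352.SubConf Vale.Agent.P352.SubF Vale.Agent.P352.H846
open Vale.Agent.P352.H246 Vale.Agent.P352.H496 UniformSpace

/-- Let `Q` be a subtheory of `Q'`, and let `Q'` be conformally invariant with the traceless
stress tensor `t'`, or let `Q'` have a stress tensor `T'` and a virial current `J'` with curl
`J' Ω = 0` such that the charges of `X^n T'_{mn} - r J'_m` generate the similitudes, and let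
`t' = T' + (∂J' - η ∂·J') / 3`. Then `Q` is conformally invariant with the compression `t` of
`t'`, and `t` has the translation and Lorentz charges of every tensor `T` of `Q` whose charges
generate these transformations. -/
theorem result {D D' : Type*} [NormedAddCommGroup D] [InnerProductSpace ℂ D]
    [NormedAddCommGroup D'] [InnerProductSpace ℂ D'] (Q : Theory D) (Q' : Theory D')
    (i : D →ₗᵢ[ℂ] D') (hi : IsSubF Q Q' i) (t' : Ix → Ix → Fn → D' → Completion D')
    (ht' : IsConfF Q' t' ∨ ∃ T' J', Q'.IsStress T' ∧ IsVirial Q' T' J' ∧ SimGen Q' T' J' ∧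
      (∀ m n f, IsTest f →
        (eta n : ℂ) • J' n (pd m f) Q'.vac = (eta m : ℂ) • J' m (pd n f) Q'.vac) ∧
      t' = fun m n f v => ((improveJ T' J' m n f v : D') : Completion D')) :
    ∃ t : Ix → Ix → Fn → D → Completion D, IsConfF Q t ∧
      (∀ m n f (v w : D), inner ℂ (w : Completion D) (t m n f v) =
        inner ℂ ((i w : D') : Completion D') (t' m n f (i v))) ∧
      ∀ T : Ix → Ix → Fld D, GenPoinc Q (fun m n f v => ((T m n f v : D) : Completion D)) →
        SameCharges Q (fun m n f v => ((T m n f v : D) : Completion D)) t := by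
  have h : IsConfF Q' t' := by
    rcases ht' with h | ⟨T', J', hT, hJ, hg, hc, rfl⟩
    · exact h
    · exact confF_curl hT hJ hg (Vale.Agent.P352.H246.curl_of hc)
  exact ⟨_, hi.confF h, fun m n f v w => inner_iA i w _, fun T hT =>
    hT.same fun L a hc => (hi.confF h).simil _ L a hc⟩

end Vale.Agent.Results.P352.SubtheoryConformal
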